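import Vale.Agent.P197.Spe.Complete
import Vale.Agent.P197.Strip.Glue
import Vale.Agent.P197.Occurs

/-!
# P197: completeness on the staircase boxes
-/

noncomputable section

namespace Vale.Agent.P197.Spe

/-- If every Specht module occurs in the tensor square of the staircase, then so does every
irreducible representation. -/
theorem occurs_of_forall_labelling {m : ℕ}
    (h : ∀ (nu : YoungDiagram) (S : Specht.Box m → ℕ × ℕ), Strip.IsLabelling S nu →
      Occurs (Strip.spechtRep S))
    {W : Type} [AddCommGroup W] [Module ℂ W] [Nontrivial W]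
    (σ : Representation ℂ (Specht.G m) W)
    (hσ : ∀ U : Submodule ℂ W, (∀ g, ∀ x ∈ U, σ g x ∈ U) → U = ⊥ ∨ U = ⊤) :
    Occurs σ := by
  obtain ⟨nu, S, hS, e, he⟩ := exists_specht_equiv σ hσ
  obtain ⟨T, hT, hTg⟩ := h nu S hS
  refine ⟨T ∘ₗ e.toLinearMap, fun h0 => hT (LinearMap.ext fun x => ?_), fun g x => ?_⟩
  · simpa using LinearMap.congr_fun h0 (e.symm x)
  · show T (e (σ g x)) = stairSquareRep m g (T (e x))
    rw [he, ← hTg]
    rfl

end Vale.Agent.P197.Spe

end
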