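import Mathlib

/-!
P197: a group has no more irreducible representations than a set through which conjugacy
factors; for a symmetric group, no more than partitions. Used for completeness of Specht modules.
-/

namespace Vale.Agent.P197.Spe

open Representation

variable {G k : Type*} [Group G] [Field k]

/-- Irreducibility from the submodule form used in this development. -/
theorem isIrreducible_of_submodule {W : Type*} [AddCommGroup W] [Module k W] [Nontrivial W]
    (σ : Representation k G W)
    (h : ∀ U : Submodule k W, (∀ g, ∀ x ∈ U, σ g x ∈ U) → U = ⊥ ∨ U = ⊤) : IsIrreducible σ where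
  exists_pair_ne := ⟨⊥, ⊤, fun e => by
    obtain ⟨x, hx⟩ := exists_ne (0 : W)
    have h' : (⊥ : Subrepresentation σ).toSubmodule = (⊤ : Subrepresentation σ).toSubmodule := by rw [e]
    have hx' : x ∈ (⊥ : Submodule k W) := by
      change x ∈ (⊥ : Subrepresentation σ).toSubmodule
      rw [h']
      exact Submodule.mem_top
    exact hx (by simpa using hx')⟩
  eq_bot_or_eq_top U := by
    rcases h U.toSubmodule (fun g x hx => U.apply_mem_toSubmodule g hx) with h' | h'
    · exact Or.inl (Subrepresentation.toSubmodule_injective h')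
    · exact Or.inr (Subrepresentation.toSubmodule_injective h')

/-- An irreducible representation of a finite group is finite dimensional. -/
theorem finiteDimensional_of_irreducible [Finite G] {W : Type*} [AddCommGroup W] [Module k W]
    (σ : Representation k G W)
    (h : ∀ U : Submodule k W, (∀ g, ∀ x ∈ U, σ g x ∈ U) → U = ⊥ ∨ U = ⊤) :
    FiniteDimensional k W := by
  rcases subsingleton_or_nontrivial W with hW | hW
  · infer_instance
  obtain ⟨u, hu⟩ := exists_ne (0 : W)
  set U := Submodule.span k (Set.range fun g => σ g u)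
  have hU : ∀ g, ∀ x ∈ U, σ g x ∈ U := by
    intro g x hx
    refine Submodule.span_induction ?_ (by simp) (fun a b _ _ ha hb => ?_) (fun c a _ ha => ?_) hx
    · rintro _ ⟨a, rfl⟩
      exact Submodule.subset_span ⟨g * a, by simp⟩
    · rw [map_add]; exact U.add_mem ha hb
    · rw [map_smul]; exact U.smul_mem c ha
  rcases h U hU with h' | h'
  · exfalso
    refine hu ?_
    have : u ∈ U := Submodule.subset_span ⟨1, by simp⟩
    simpa [h'] using this
  · have : FiniteDimensional k U := FiniteDimensional.span_of_finite k (Set.finite_range _)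
    exact Module.Finite.of_surjective U.subtype fun x => ⟨⟨x, h' ▸ trivial⟩, rfl⟩

variable [Fintype G] [IsAlgClosed k] [CharZero k]

omit [IsAlgClosed k] [CharZero k] in
/-- Orthonormal class functions are at most as many as the points through which conjugacy
factors. -/
theorem card_orthonormal_le {ι P : Type*} [Fintype ι] [DecidableEq ι] [Fintype P] (c : G → P)
    (χ : ι → G → k) (hχ : ∀ i g h, c g = c h → χ i g = χ i h)
    (key : ∀ j i, (Nat.card G : k)⁻¹ * ∑ g, χ j g * χ i g⁻¹ = if j = i then 1 else 0) :
    Fintype.card ι ≤ Fintype.card P := by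
  classical
  let f : ι → P → k := fun i p => if hp : ∃ g, c g = p then χ i hp.choose else 0
  have hf : ∀ i g, f i (c g) = χ i g := fun i g => by
    have hp : ∃ g', c g' = c g := ⟨g, rfl⟩
    simp only [f, dif_pos hp]
    exact hχ i _ _ hp.choose_spec
  have hind : LinearIndependent k f := by
    refine Fintype.linearIndependent_iff.2 fun a ha i => ?_
    have h1 : ∀ g, ∑ j, a j * χ j g = 0 := fun g => by
      have := congrFun ha (c g)
      simpa [hf] using this
    calc a i = ∑ j, a j * (if j = i then (1 : k) else 0) := by simp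
      _ = ∑ j, a j * ((Nat.card G : k)⁻¹ * ∑ g, χ j g * χ i g⁻¹) := by simp only [key]
      _ = (Nat.card G : k)⁻¹ * ∑ g, (∑ j, a j * χ j g) * χ i g⁻¹ := by
        simp only [Finset.mul_sum, Finset.sum_mul]
        rw [Finset.sum_comm]
        exact Finset.sum_congr rfl fun g _ => Finset.sum_congr rfl fun j _ => by ring
      _ = 0 := by simp [h1]
  have := hind.fintype_card_le_finrank
  rwa [Module.finrank_fintype_fun_eq_card] at this

variable {W W' : Type*} [AddCommGroup W] [Module k W] [FiniteDimensional k W] [AddCommGroup W']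
  [Module k W'] [FiniteDimensional k W']

/-- Orthonormality of two irreducible characters, in the two cases. -/
theorem char_orth_cases (ρ : Representation k G W) (σ : Representation k G W') (hρ : IsIrreducible ρ)
    (hσ : IsIrreducible σ) :
    (Nonempty (Representation.Equiv σ ρ) →
      (Nat.card G : k)⁻¹ * ∑ g, ρ.character g * σ.character g⁻¹ = 1) ∧
    (¬ Nonempty (Representation.Equiv σ ρ) →
      (Nat.card G : k)⁻¹ * ∑ g, ρ.character g * σ.character g⁻¹ = 0) := by
  have : Invertible (Nat.card G : k) := invertibleOfNonzero (Nat.cast_ne_zero.2 Nat.card_pos.ne')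
  constructor <;> intro h <;> rw [char_orthonormal] <;> simp [h]

omit [Fintype G] [IsAlgClosed k] [CharZero k] [FiniteDimensional k W] in
theorem char_eq_of_isConj (ρ : Representation k G W) {g h : G} (hgh : IsConj g h) :
    ρ.character g = ρ.character h := by
  obtain ⟨t, ht⟩ := isConj_iff.1 hgh
  rw [← ht, char_conj]

/-- Completeness: as many pairwise non-isomorphic irreducibles as partitions contain every
irreducible representation. -/
theorem exists_equiv_of_card {α : Type*} [Fintype α] [DecidableEq α] {n : ℕ}
    (hn : Fintype.card α = n) {ι : Type*} [Fintype ι] {V : ι → Type*} [∀ i, AddCommGroup (V i)]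
    [∀ i, Module k (V i)] [∀ i, FiniteDimensional k (V i)]
    (ρ : ∀ i, Representation k (Equiv.Perm α) (V i)) (hirr : ∀ i, IsIrreducible (ρ i))
    (hne : ∀ i j, Nonempty (Representation.Equiv (ρ i) (ρ j)) → i = j)
    (hcard : Fintype.card n.Partition ≤ Fintype.card ι)
    {W : Type*} [AddCommGroup W] [Module k W] [Nontrivial W]
    (σ : Representation k (Equiv.Perm α) W)
    (hσ : ∀ U : Submodule k W, (∀ g, ∀ x ∈ U, σ g x ∈ U) → U = ⊥ ∨ U = ⊤) :
    ∃ i, Nonempty (Representation.Equiv (ρ i) σ) := by
  classical
  subst hn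
  by_contra hcon
  have hno : ∀ i, ¬ Nonempty (Representation.Equiv (ρ i) σ) := fun i h => hcon ⟨i, h⟩
  have := finiteDimensional_of_irreducible σ hσ
  have hσ' := isIrreducible_of_submodule σ hσ
  have h := card_orthonormal_le (G := Equiv.Perm α) Equiv.Perm.partition
    (fun o => Option.elim o σ.character fun i => (ρ i).character)
    (fun o g g' e => by
      cases o <;> exact char_eq_of_isConj _ (Equiv.Perm.partition_eq_of_isConj.2 e))
    (fun a b => by
      rcases a with _ | a <;> rcases b with _ | b
      · simpa using (char_orth_cases σ σ hσ' hσ').1 ⟨Representation.Equiv.refl _⟩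
      · simpa using (char_orth_cases σ (ρ b) hσ' (hirr b)).2 (hno b)
      · simpa using (char_orth_cases (ρ a) σ (hirr a) hσ').2 fun e => hno a ⟨e.some.symm⟩
      · by_cases hab : a = b
        · subst hab
          simpa using (char_orth_cases (ρ a) (ρ a) (hirr a) (hirr a)).1 ⟨Representation.Equiv.refl _⟩
        · simpa [hab] using
            (char_orth_cases (ρ a) (ρ b) (hirr a) (hirr b)).2 fun e => hab (hne b a e).symm)
  rw [Fintype.card_option] at h
  omega

/-- Completeness in the submodule form: as many irreducibles without equivariant maps between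
them as partitions meet every irreducible representation in a nonzero equivariant map. -/
theorem exists_map_of_card {α : Type*} [Fintype α] [DecidableEq α] {ι : Type*} [Fintype ι]
    (hcard : Fintype.card (Nat.Partition (Fintype.card α)) ≤ Fintype.card ι)
    {V : ι → Type*} [∀ i, AddCommGroup (V i)] [∀ i, Module k (V i)] [∀ i, FiniteDimensional k (V i)]
    [∀ i, Nontrivial (V i)] (ρ : ∀ i, Representation k (Equiv.Perm α) (V i))
    (hirr : ∀ i, ∀ U : Submodule k (V i), (∀ g, ∀ x ∈ U, ρ i g x ∈ U) → U = ⊥ ∨ U = ⊤)
    (hne : ∀ i j, i ≠ j → ∀ T : V i →ₗ[k] V j, (∀ g x, T (ρ i g x) = ρ j g (T x)) → T = 0)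
    {W : Type*} [AddCommGroup W] [Module k W] [Nontrivial W]
    (σ : Representation k (Equiv.Perm α) W)
    (hσ : ∀ U : Submodule k W, (∀ g, ∀ x ∈ U, σ g x ∈ U) → U = ⊥ ∨ U = ⊤) :
    ∃ i, ∃ T : V i →ₗ[k] W, T ≠ 0 ∧ ∀ g x, T (ρ i g x) = σ g (T x) := by
  obtain ⟨i, ⟨e⟩⟩ := exists_equiv_of_card rfl ρ (fun i => isIrreducible_of_submodule _ (hirr i))
    (fun i j h => by
      by_contra hij
      obtain ⟨e⟩ := h
      obtain ⟨x, hx⟩ := exists_ne (0 : V i)
      have h0 := LinearMap.congr_fun (hne i j hij e.toLinearMap
        fun g x => LinearMap.congr_fun (e.toIntertwiningMap.isIntertwining' g) x) x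
      exact hx (e.toLinearEquiv.map_eq_zero_iff.1 h0)) hcard σ hσ
  refine ⟨i, e.toLinearMap, fun h0 => ?_, fun g x => LinearMap.congr_fun (e.toIntertwiningMap.isIntertwining' g) x⟩
  obtain ⟨x, hx⟩ := exists_ne (0 : V i)
  exact hx (e.toLinearEquiv.map_eq_zero_iff.1 (LinearMap.congr_fun h0 x))

end Vale.Agent.P197.Spe
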