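import Vale.Agent.P197.Spe.Rep
import Vale.Agent.P197.Full.SignTwist

/-!
# P197: the sign twist in the language of `Spe.spRep`
-/

noncomputable section

namespace Vale.Agent.P197.Spe

variable {α : Type*} [Fintype α]

lemma exists_twist_aux (T U : α → ℕ × ℕ) (hU : U = Strip.flipLab T) :
    ∃ e : Strip.specht U ≃ₗ[ℂ] Strip.specht T,
      ∀ g x, e (spRep U g x) = Strip.sgn g • spRep T g (e x) := by
  subst hU
  refine ⟨Strip.signTwist T, fun g x => Subtype.ext ?_⟩
  have h := Strip.signTwist_act g x (spRep (Strip.flipLab T) g x) (funext fun t => spRep_coe _ g x t)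
  rw [h, Submodule.coe_smul]
  exact congrArg _ (funext fun t => (spRep_coe T g (Strip.signTwist T x) t).symm)

/-- The Specht module is the sign twist of the Specht module of the transposed labelling. -/
theorem exists_twist' (S : α → ℕ × ℕ) :
    ∃ e : Strip.specht S ≃ₗ[ℂ] Strip.specht (swapS S),
      ∀ g x, e (spRep S g x) = Strip.sgn g • spRep (swapS S) g (e x) :=
  exists_twist_aux (swapS S) S (funext fun _ => rfl)

theorem exists_twist {nu : YoungDiagram} {S : α → ℕ × ℕ} (_hS : Strip.IsLabelling S nu) :
    ∃ e : Strip.specht S ≃ₗ[ℂ] Strip.specht (swapS S),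
      ∀ g x, e (spRep S g x) = Strip.sgn g • spRep (swapS S) g (e x) :=
  exists_twist' S

theorem isLabelling_swapS {nu : YoungDiagram} {S : α → ℕ × ℕ} (hS : Strip.IsLabelling S nu) :
    Strip.IsLabelling (swapS S) nu.transpose :=
  Strip.isLabelling_flip hS

end Vale.Agent.P197.Spe

end
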