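import Vale.Agent.P197.Spe.James
import Vale.Agent.P197.Spe.Count
import Vale.Agent.P197.Spe.Twist

/-!
# P197: completeness of the Specht modules
-/

noncomputable section

namespace Vale.Agent.P197.Spe

open scoped Classical

variable {α : Type*} [Fintype α]

instance specht_finite (S : α → ℕ × ℕ) : FiniteDimensional ℂ (Strip.specht S) :=
  FiniteDimensional.span_of_finite ℂ (Set.finite_range _)

/-- The parts of a partition in decreasing order. -/
def partsList {n : ℕ} (p : Nat.Partition n) : List ℕ := p.parts.sort (fun a b => b ≤ a)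

/-- The diagram of a partition. -/
def diagramOf {n : ℕ} (p : Nat.Partition n) : YoungDiagram :=
  YoungDiagram.ofRowLens (partsList p) (Multiset.pairwise_sort p.parts _).sortedGE

lemma diagramOf_injective {n : ℕ} : Function.Injective (diagramOf (n := n)) := by
  intro p q h
  have hp : ∀ r : Nat.Partition n, (diagramOf r).rowLens = partsList r := fun r =>
    YoungDiagram.rowLens_ofRowLens_eq_self fun x hx => r.parts_pos ((Multiset.mem_sort _).1 hx)
  have hl : partsList p = partsList q := by rw [← hp, ← hp, h]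
  refine Nat.Partition.ext ?_
  rw [← Multiset.sort_eq p.parts (fun a b => b ≤ a), ← Multiset.sort_eq q.parts (fun a b => b ≤ a)]
  exact congrArg _ hl

lemma card_diagramOf {n : ℕ} (p : Nat.Partition n) : (diagramOf p).cells.card = n := by
  have h : ∀ l : List ℕ, (YoungDiagram.cellsOfRowLens l).card = l.sum := by
    intro l
    induction l with
    | nil => rfl
    | cons a l ih =>
      rw [YoungDiagram.cellsOfRowLens, Finset.card_union_of_disjoint (by
        rw [Finset.disjoint_left]; rintro ⟨i, j⟩ h1 h2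
        simp at h1 h2
        omega), Finset.card_product, Finset.card_map,
        ih, Finset.card_singleton, Finset.card_range, one_mul, List.sum_cons]
  refine (h _).trans ?_
  rw [← Multiset.sum_coe, partsList, Multiset.sort_eq, p.parts_sum]

lemma exists_labelling (d : YoungDiagram) (h : d.cells.card = Fintype.card α) :
    ∃ S : α → ℕ × ℕ, Strip.IsLabelling S d := by
  have e : α ≃ d.cells := Fintype.equivOfCardEq (by simp [h])
  refine ⟨fun x => (e x).1, fun a b hab => e.injective (Subtype.ext hab), ?_⟩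
  ext c
  simp only [Finset.mem_image, Finset.mem_univ, true_and]
  exact ⟨fun ⟨x, hx⟩ => hx ▸ (e x).2, fun hc => ⟨e.symm ⟨c, hc⟩, by simp⟩⟩

/-- A nonzero homomorphism of Specht modules has an equivariant inverse. -/
lemma exists_symm {S S' : α → ℕ × ℕ} {nu mu : YoungDiagram} (hS : Strip.IsLabelling S nu)
    (hS' : Strip.IsLabelling S' mu) (T : Strip.specht S →ₗ[ℂ] Strip.specht S') (hT : T ≠ 0)
    (hTg : ∀ g x, T (spRep S g x) = spRep S' g (T x)) :
    ∃ R : Strip.specht S' →ₗ[ℂ] Strip.specht S, R ≠ 0 ∧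
      ∀ g x, R (spRep S' g x) = spRep S g (R x) := by
  have hker : LinearMap.ker T = ⊥ := (specht_irreducible hS _ fun g x hx => by
    rw [LinearMap.mem_ker] at hx ⊢
    rw [hTg, hx, map_zero]).resolve_right fun h => hT (LinearMap.ker_eq_top.1 h)
  have hrange : LinearMap.range T = ⊤ := (specht_irreducible hS' _ fun g x hx => by
    obtain ⟨y, rfl⟩ := hx
    exact ⟨spRep S g y, hTg g y⟩).resolve_left fun h => hT (LinearMap.range_eq_bot.1 h)
  set e := LinearEquiv.ofBijective T ⟨LinearMap.ker_eq_bot.1 hker, LinearMap.range_eq_top.1 hrange⟩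
  refine ⟨e.symm.toLinearMap, fun h => hT (LinearMap.ext fun x => ?_), fun g x => ?_⟩
  · have := LinearMap.congr_fun h (e x)
    simp only [LinearEquiv.coe_coe, LinearEquiv.symm_apply_apply, LinearMap.zero_apply] at this
    simp [this]
  · apply e.injective
    show e (e.symm (spRep S' g x)) = e (spRep S g (e.symm x))
    rw [e.apply_symm_apply]
    show _ = T (spRep S g (e.symm x))
    rw [hTg]
    congr 1
    exact (e.apply_symm_apply x).symm

/-- Completeness: every irreducible representation is a Specht module. -/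
theorem exists_specht_equiv {W : Type*} [AddCommGroup W] [Module ℂ W] [Nontrivial W]
    (σ : Representation ℂ (Equiv.Perm α) W)
    (hσ : ∀ U : Submodule ℂ W, (∀ g, ∀ x ∈ U, σ g x ∈ U) → U = ⊥ ∨ U = ⊤) :
    ∃ (nu : YoungDiagram) (S : α → ℕ × ℕ), Strip.IsLabelling S nu ∧
      ∃ e : W ≃ₗ[ℂ] Strip.specht S, ∀ g x, e (σ g x) = spRep S g (e x) := by
  choose S hS using fun p : Nat.Partition (Fintype.card α) =>
    exists_labelling (α := α) (diagramOf p) (card_diagramOf p)
  have : ∀ p, Nontrivial (Strip.specht (S p)) := fun p => specht_nontrivial (hS p)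
  have hne : ∀ p q, p ≠ q → ∀ T : Strip.specht (S p) →ₗ[ℂ] Strip.specht (S q),
      (∀ g x, T (spRep (S p) g x) = spRep (S q) g (T x)) → T = 0 := by
    intro p q hpq T hTg
    by_contra hT
    obtain ⟨R, hR, hRg⟩ := exists_symm (hS p) (hS q) T hT hTg
    exact hpq (diagramOf_injective (diagram_eq (hS p) (hS q) fun k =>
      le_antisymm (card_lt_le (hS q) R hR hRg k) (card_lt_le (hS p) T hT hTg k)))
  obtain ⟨p, T, hT, hTg⟩ := exists_map_of_card le_rfl (fun p => spRep (S p))
    (fun p => specht_irreducible (hS p)) hne σ hσ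
  have hker : LinearMap.ker T = ⊥ := (specht_irreducible (hS p) _ fun g x hx => by
    rw [LinearMap.mem_ker] at hx ⊢
    rw [hTg, hx, map_zero]).resolve_right fun h => hT (LinearMap.ker_eq_top.1 h)
  have hrange : LinearMap.range T = ⊤ := (hσ _ fun g x hx => by
    obtain ⟨y, rfl⟩ := hx
    exact ⟨spRep (S p) g y, hTg g y⟩).resolve_left fun h => hT (LinearMap.range_eq_bot.1 h)
  set e := LinearEquiv.ofBijective T ⟨LinearMap.ker_eq_bot.1 hker, LinearMap.range_eq_top.1 hrange⟩
  refine ⟨diagramOf p, S p, hS p, e.symm, fun g x => e.injective ?_⟩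
  rw [e.apply_symm_apply]
  show σ g x = T (spRep (S p) g (e.symm x))
  rw [hTg]
  congr 1
  exact (e.apply_symm_apply x).symm

/-- Whatever all Specht modules map to, every irreducible representation maps to. -/
theorem exists_map_of_forall_specht {V : Type*} [AddCommGroup V] [Module ℂ V]
    (τ : Representation ℂ (Equiv.Perm α) V)
    (h : ∀ (nu : YoungDiagram) (S : α → ℕ × ℕ), Strip.IsLabelling S nu →
      ∃ T : Strip.specht S →ₗ[ℂ] V, T ≠ 0 ∧ ∀ g x, T (spRep S g x) = τ g (T x))
    {W : Type*} [AddCommGroup W] [Module ℂ W] [Nontrivial W]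
    (σ : Representation ℂ (Equiv.Perm α) W)
    (hσ : ∀ U : Submodule ℂ W, (∀ g, ∀ x ∈ U, σ g x ∈ U) → U = ⊥ ∨ U = ⊤) :
    ∃ T : W →ₗ[ℂ] V, T ≠ 0 ∧ ∀ g x, T (σ g x) = τ g (T x) := by
  obtain ⟨nu, S, hS, e, he⟩ := exists_specht_equiv σ hσ
  obtain ⟨T, hT, hTg⟩ := h nu S hS
  refine ⟨T ∘ₗ e.toLinearMap, fun h0 => hT (LinearMap.ext fun x => ?_), fun g x => ?_⟩
  · simpa using LinearMap.congr_fun h0 (e.symm x)
  · simp [he, hTg]

end Vale.Agent.P197.Spe

end
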