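import Vale.Agent.P197.Spe.Rep

/-!
# P197: irreducibility of Specht modules and dominance
-/

noncomputable section

namespace Vale.Agent.P197.Spe

open scoped Classical

variable {α : Type*} [Fintype α] {S S' : α → ℕ × ℕ} {nu mu : YoungDiagram}

/-- The row assignment of a labelling. -/
def rowS (S : α → ℕ × ℕ) (x : α) : ℕ := (S x).1

lemma sgn_one : Strip.sgn (1 : Equiv.Perm α) = 1 := by simp [Strip.sgn]

lemma sgn_mul (g h : Equiv.Perm α) : Strip.sgn (g * h) = Strip.sgn g * Strip.sgn h := by
  simp [Strip.sgn]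

lemma sgn_sq (g : Equiv.Perm α) : Strip.sgn g * Strip.sgn g = 1 := by
  simp only [Strip.sgn]
  rw [← Int.cast_mul, ← Units.val_mul, Int.units_mul_self]
  simp

omit [Fintype α] in
lemma exists_row_eq [Fintype α] (hS : Strip.IsLabelling S nu) (x : α) {r : ℕ}
    (hr : r < (Finset.univ.filter fun y => (S y).2 = (S x).2).card) :
    ∃ y, S y = (r, (S x).2) := by
  by_contra hne
  push Not at hne
  have hlt : ∀ y, (S y).2 = (S x).2 → (S y).1 < r := by
    intro y hy
    by_contra hge
    push Not at hge
    obtain ⟨u, hu⟩ := Strip.exists_preimage hS (x := y) (p := (r, (S x).2)) ⟨hge, hy.ge⟩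
    exact hne u hu
  have hle : (Finset.univ.filter fun y => (S y).2 = (S x).2).card ≤ (Finset.range r).card := by
    refine Finset.card_le_card_of_injOn (fun y => (S y).1) (fun y hy => ?_) fun a ha b hb e => ?_
    · simp only [Finset.coe_filter, Finset.mem_univ, true_and, Set.mem_ofPred_eq] at hy
      simpa using hlt y hy
    · simp only [Finset.coe_filter, Finset.mem_univ, true_and, Set.mem_ofPred_eq] at ha hb
      exact hS.1 (Prod.ext e (ha.trans hb.symm))
  rw [Finset.card_range] at hle
  omega

/-- An assignment which is injective on every column dominates the rows after a column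
permutation. -/
lemma exists_col_le (hS : Strip.IsLabelling S nu) (t : α → ℕ)
    (ht : ∀ a b, (S a).2 = (S b).2 → t a = t b → a = b) :
    ∃ c ∈ Strip.colPerms S, ∀ x, rowS S (c x) ≤ t x := by
  set A : α → Finset α := fun x =>
    Finset.univ.filter fun y => (S y).2 = (S x).2 ∧ t y < t x with hA
  have hA1 : ∀ x, (A x).card < (Finset.univ.filter fun y => (S y).2 = (S x).2).card := by
    intro x
    refine Finset.card_lt_card (Finset.ssubset_iff_of_subset ?_ |>.2 ⟨x, by simp, by simp [hA]⟩)
    intro y hy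
    simp only [hA, Finset.mem_filter, Finset.mem_univ, true_and] at hy ⊢
    exact hy.1
  choose φ hφ using fun x => exists_row_eq hS x (hA1 x)
  have hinj : Function.Injective φ := by
    intro a b e
    have h := (hφ a).symm.trans ((congrArg S e).trans (hφ b))
    rw [Prod.mk.injEq] at h
    refine ht a b h.2 ?_
    rcases lt_trichotomy (t a) (t b) with hlt | heq | hlt
    · exfalso
      refine h.1.not_lt (Finset.card_lt_card (Finset.ssubset_iff_of_subset ?_ |>.2
        ⟨a, by simp [hA, h.2, hlt], by simp [hA]⟩))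
      intro y hy
      simp only [hA, Finset.mem_filter, Finset.mem_univ, true_and] at hy ⊢
      exact ⟨hy.1.trans h.2, hy.2.trans hlt⟩
    · exact heq
    · exfalso
      refine h.1.symm.not_lt (Finset.card_lt_card (Finset.ssubset_iff_of_subset ?_ |>.2
        ⟨b, by simp [hA, h.2, hlt], by simp [hA]⟩))
      intro y hy
      simp only [hA, Finset.mem_filter, Finset.mem_univ, true_and] at hy ⊢
      exact ⟨hy.1.trans h.2.symm, hy.2.trans hlt⟩
  refine ⟨Equiv.ofBijective φ (Finite.injective_iff_bijective.1 hinj),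
    Strip.mem_colPerms.2 fun x => ?_, fun x => ?_⟩
  · show (S (φ x)).2 = (S x).2
    rw [hφ x]
  · show (S (φ x)).1 ≤ t x
    rw [hφ x]
    refine le_of_le_of_eq (Finset.card_le_card_of_injOn t (t := Finset.range (t x))
      (fun y hy => ?_) fun a ha b hb e => ?_) (Finset.card_range _)
    · simp only [hA, Finset.coe_filter, Finset.mem_univ, true_and, Set.mem_ofPred_eq] at hy
      simpa using hy.2
    · simp only [hA, Finset.coe_filter, Finset.mem_univ, true_and, Set.mem_ofPred_eq] at ha hb
      exact ht a b (ha.1.trans hb.1.symm) e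

/-- An assignment in the orbit of the rows which is injective on every column comes from a
column permutation. -/
lemma exists_col_eq (hS : Strip.IsLabelling S nu) (g : Equiv.Perm α)
    (ht : ∀ a b, (S a).2 = (S b).2 → rowS S (g a) = rowS S (g b) → a = b) :
    ∃ c ∈ Strip.colPerms S, rowS S ∘ c = rowS S ∘ g := by
  obtain ⟨c, hc, hle⟩ := exists_col_le hS (rowS S ∘ g) ht
  refine ⟨c, hc, funext fun x => ?_⟩
  refine (Finset.sum_eq_sum_iff_of_le fun x _ => hle x).1 ?_ x (Finset.mem_univ x)
  exact (Equiv.sum_comp c (rowS S)).trans (Equiv.sum_comp g (rowS S)).symm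

/-- The signed column sum. -/
def anti (S : α → ℕ × ℕ) (x : (α → ℕ) → ℂ) : (α → ℕ) → ℂ :=
  fun t => ∑ c ∈ Strip.colPerms S, Strip.sgn c * x (t ∘ c)

lemma sum_colPerms_inv {M : Type*} [AddCommMonoid M] (F : Equiv.Perm α → M) :
    ∑ c ∈ Strip.colPerms S, F c⁻¹ = ∑ c ∈ Strip.colPerms S, F c :=
  Finset.sum_nbij' (fun c => c⁻¹) (fun c => c⁻¹) (fun _ h => Strip.inv_mem_colPerms h)
    (fun _ h => Strip.inv_mem_colPerms h) (fun c _ => inv_inv c) (fun c _ => inv_inv c)
    fun _ _ => rfl

lemma sgn_inv (g : Equiv.Perm α) : Strip.sgn g⁻¹ = Strip.sgn g := by simp [Strip.sgn]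

omit [Fintype α] in
lemma comp_eq_iff (t u : α → ℕ) (g : Equiv.Perm α) : t ∘ g = u ↔ t = u ∘ ⇑g⁻¹ := by
  constructor <;> rintro rfl <;> funext x <;> simp

lemma poly_eq (S : α → ℕ × ℕ) (t : α → ℕ) :
    Strip.poly S t = ∑ c ∈ Strip.colPerms S, if t ∘ c = rowS S then Strip.sgn c else 0 := by
  rw [Strip.poly, ← sum_colPerms_inv (F := fun c => if t ∘ c = rowS S then Strip.sgn c else 0)]
  refine Finset.sum_congr rfl fun c _ => ?_
  simp only [comp_eq_iff, inv_inv, sgn_inv]
  rfl

lemma poly_comp (c : Equiv.Perm α) (hc : c ∈ Strip.colPerms S) (t : α → ℕ) :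
    Strip.poly S (t ∘ c) = Strip.sgn c * Strip.poly S t := by
  rw [poly_eq, poly_eq, Finset.mul_sum]
  refine Finset.sum_nbij' (fun d => c * d) (fun d => c⁻¹ * d)
    (fun d hd => Strip.mul_mem_colPerms hc hd)
    (fun d hd => Strip.mul_mem_colPerms (Strip.inv_mem_colPerms hc) hd)
    (fun d _ => by group) (fun d _ => by group) fun d _ => ?_
  rw [Equiv.Perm.coe_mul, ← Function.comp_assoc, mul_ite, mul_zero, sgn_mul, ← mul_assoc, sgn_sq,
    one_mul]

lemma poly_row (hS : Strip.IsLabelling S nu) : Strip.poly S (rowS S) = 1 := by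
  rw [poly_eq, Finset.sum_eq_single_of_mem 1 Strip.one_mem_colPerms fun c hc hne => if_neg ?_]
  · simp [sgn_one]
  · intro h
    exact hne (Equiv.ext fun x => hS.1 (Prod.ext (congrFun h x) (Strip.mem_colPerms.1 hc x)))

/-- The assignments in the orbit of the rows. -/
def orbit (S : α → ℕ × ℕ) : Finset (α → ℕ) :=
  Finset.univ.image fun g : Equiv.Perm α => rowS S ∘ g

lemma specht_support {x : (α → ℕ) → ℂ} (hx : x ∈ Strip.specht S) {t : α → ℕ}
    (ht : t ∉ orbit S) : x t = 0 := by
  induction hx using Submodule.span_induction with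
  | mem x hx =>
    obtain ⟨g, rfl⟩ := hx
    show Strip.poly S (t ∘ g) = 0
    rw [poly_eq]
    refine Finset.sum_eq_zero fun c _ => if_neg fun h => ht ?_
    refine Finset.mem_image.2 ⟨(g * c)⁻¹, Finset.mem_univ _, ?_⟩
    have h' : t ∘ ⇑(g * c) = rowS S := by
      rw [Equiv.Perm.coe_mul, ← Function.comp_assoc]; exact h
    exact ((comp_eq_iff _ _ _).1 h').symm
  | zero => rfl
  | add a b _ _ ha hb => simp [ha, hb]
  | smul r a _ ha => simp [ha]

lemma anti_orbit (hS : Strip.IsLabelling S nu) {x : (α → ℕ) → ℂ} (hx : ∀ t ∉ orbit S, x t = 0)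
    (t : α → ℕ) : anti S x t = anti S x (rowS S) * Strip.poly S t := by
  have hanti : ∀ c ∈ Strip.colPerms S, ∀ u : α → ℕ,
      anti S x (u ∘ c) = Strip.sgn c * anti S x u := by
    intro c hc u
    simp only [anti, Finset.mul_sum]
    refine Finset.sum_nbij' (fun d => c * d) (fun d => c⁻¹ * d)
      (fun d hd => Strip.mul_mem_colPerms hc hd)
      (fun d hd => Strip.mul_mem_colPerms (Strip.inv_mem_colPerms hc) hd)
      (fun d _ => by group) (fun d _ => by group) fun d _ => ?_
    rw [Equiv.Perm.coe_mul, ← Function.comp_assoc, sgn_mul, ← mul_assoc, ← mul_assoc, sgn_sq,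
      one_mul]
  by_cases hcol : ∃ c ∈ Strip.colPerms S, rowS S ∘ c = t
  · obtain ⟨c, hc, rfl⟩ := hcol
    rw [hanti c hc, poly_comp c hc, poly_row hS, mul_one, mul_comm]
  · have hp : Strip.poly S t = 0 := by
      rw [Strip.poly]
      exact Finset.sum_eq_zero fun c hc => if_neg fun h => hcol ⟨c, hc, h.symm⟩
    rw [hp, mul_zero]
    by_cases ht : t ∈ orbit S
    · obtain ⟨g, -, rfl⟩ := Finset.mem_image.1 ht
      obtain ⟨a, b, hab, he, hne⟩ : ∃ a b, (S a).2 = (S b).2 ∧
          rowS S (g a) = rowS S (g b) ∧ a ≠ b := by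
        by_contra hne
        push Not at hne
        exact hcol (exists_col_eq hS g hne)
      have hτ : Equiv.swap a b ∈ Strip.colPerms S := Strip.mem_colPerms.2 fun y => by
        rw [Equiv.swap_apply_def]; split_ifs with h1 h2
        · rw [h1, hab]
        · rw [h2, hab]
        · rfl
      have hfix : (rowS S ∘ g) ∘ Equiv.swap a b = rowS S ∘ g := funext fun y => by
        simp only [Function.comp_apply]
        rw [Equiv.swap_apply_def]; split_ifs with h1 h2
        · rw [h1, he]
        · rw [h2, he]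
        · rfl
      have hsw : Strip.sgn (Equiv.swap a b) = -1 := by simp [Strip.sgn, hne]
      have := hanti _ hτ (rowS S ∘ g)
      rw [hfix, hsw] at this
      linear_combination this / 2
    · refine Finset.sum_eq_zero fun c _ => ?_
      rw [hx _ fun h => ht ?_, mul_zero]
      obtain ⟨g, -, hg⟩ := Finset.mem_image.1 h
      refine Finset.mem_image.2 ⟨g * c⁻¹, Finset.mem_univ _, ?_⟩
      rw [Equiv.Perm.coe_mul, ← Function.comp_assoc, hg]
      funext y
      simp

lemma anti_mem {U : Submodule ℂ (Strip.specht S)} (hU : ∀ g, ∀ x ∈ U, spRep S g x ∈ U)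
    {x : Strip.specht S} (hx : x ∈ U) :
    ∃ y ∈ U, (y : (α → ℕ) → ℂ) = anti S x := by
  refine ⟨∑ c ∈ Strip.colPerms S, Strip.sgn c • spRep S c x,
    Submodule.sum_mem _ fun c _ => U.smul_mem _ (hU c x hx), funext fun t => ?_⟩
  simp [anti, spRep_coe, Finset.sum_apply]

lemma conj_mem {x : (α → ℕ) → ℂ} (hx : x ∈ Strip.specht S) :
    (fun t => starRingEnd ℂ (x t)) ∈ Strip.specht S := by
  induction hx using Submodule.span_induction with
  | mem x hx =>
    obtain ⟨g, rfl⟩ := hx
    refine Submodule.subset_span ⟨g, funext fun t => ?_⟩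
    simp [Strip.poly, Strip.sgn, apply_ite (starRingEnd ℂ)]
  | zero =>
    convert (Strip.specht S).zero_mem using 1
    funext t
    simp
  | add a b _ _ ha hb =>
    convert (Strip.specht S).add_mem ha hb using 1
    funext t
    simp
  | smul r a _ ha =>
    convert (Strip.specht S).smul_mem (starRingEnd ℂ r) ha using 1
    funext t
    simp

lemma sum_orbit_translate (x : (α → ℕ) → ℂ) (g : Equiv.Perm α) :
    ∑ t ∈ orbit S, x t * Strip.poly S (t ∘ g) = anti S (assignRep α g⁻¹ x) (rowS S) := by
  simp only [Strip.poly, Finset.mul_sum, mul_ite, mul_zero, anti, assignRep_apply]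
  rw [Finset.sum_comm]
  refine Finset.sum_congr rfl fun c _ => ?_
  have e : ∀ t : α → ℕ, (t ∘ g = fun y => (S (c y)).1) ↔ t = (rowS S ∘ c) ∘ ⇑g⁻¹ := fun t =>
    comp_eq_iff t (rowS S ∘ c) g
  simp only [e, Finset.sum_ite_eq']
  rw [if_pos, mul_comm]
  exact Finset.mem_image.2 ⟨c * g⁻¹, Finset.mem_univ _, by rw [Equiv.Perm.coe_mul]; rfl⟩

/-- James's theorem: the Specht module of a diagram is irreducible. -/
theorem specht_irreducible (hS : Strip.IsLabelling S nu) (U : Submodule ℂ (Strip.specht S))
    (hU : ∀ g, ∀ x ∈ U, spRep S g x ∈ U) : U = ⊥ ∨ U = ⊤ := by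
  refine or_iff_not_imp_left.2 fun hne => ?_
  obtain ⟨x, hx, hx0⟩ := (Submodule.ne_bot_iff U).1 hne
  have key : ∃ g : Equiv.Perm α, anti S (assignRep α g x) (rowS S) ≠ 0 := by
    by_contra h0
    push Not at h0
    have horth : ∀ y ∈ Strip.specht S, ∑ t ∈ orbit S, (x : (α → ℕ) → ℂ) t * y t = 0 := by
      intro y hy
      induction hy using Submodule.span_induction with
      | mem y hy =>
        obtain ⟨g, rfl⟩ := hy
        exact (sum_orbit_translate _ g).trans (h0 g⁻¹)
      | zero => simp
      | add a b _ _ ha hb => simp [mul_add, Finset.sum_add_distrib, ha, hb]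
      | smul r a _ ha =>
        simp only [Pi.smul_apply, smul_eq_mul]
        rw [← mul_zero r, ← ha, Finset.mul_sum]
        exact Finset.sum_congr rfl fun t _ => by ring
    have h := horth _ (conj_mem x.2)
    simp only [Complex.mul_conj, ← Complex.ofReal_sum, Complex.ofReal_eq_zero] at h
    rw [Finset.sum_eq_zero_iff_of_nonneg fun t _ => Complex.normSq_nonneg _] at h
    refine hx0 (Subtype.ext (funext fun t => ?_))
    by_cases ht : t ∈ orbit S
    · exact Complex.normSq_eq_zero.1 (h t ht)
    · exact specht_support x.2 ht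
  obtain ⟨g, hg⟩ := key
  obtain ⟨y, hy, hyv⟩ := anti_mem hU (hU g x hx)
  have hsupp : ∀ t ∉ orbit S, (spRep S g x : (α → ℕ) → ℂ) t = 0 := fun t ht =>
    specht_support (spRep S g x).2 ht
  have hp : (⟨Strip.poly S, poly_mem S⟩ : Strip.specht S) ∈ U := by
    have e : (⟨Strip.poly S, poly_mem S⟩ : Strip.specht S)
        = (anti S (spRep S g x) (rowS S))⁻¹ • y := by
      refine Subtype.ext (funext fun t => ?_)
      rw [Submodule.coe_smul, Pi.smul_apply, hyv, smul_eq_mul]
      conv_rhs => arg 2; rw [anti_orbit hS hsupp t]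
      rw [
        inv_mul_cancel_left₀]
      exact hg
    rw [e]
    exact U.smul_mem _ hy
  rw [eq_top_iff]
  rintro ⟨z, hz⟩ -
  induction hz using Submodule.span_induction with
  | mem z hz =>
    obtain ⟨h, rfl⟩ := hz
    exact hU h _ hp
  | zero => exact U.zero_mem
  | add a b _ _ ha hb => exact U.add_mem ha hb
  | smul r a _ ha => exact U.smul_mem r ha

lemma specht_nontrivial (hS : Strip.IsLabelling S nu) : Nontrivial (Strip.specht S) := by
  refine ⟨⟨⟨Strip.poly S, poly_mem S⟩, 0, fun h => ?_⟩⟩
  have := congrFun (congrArg Subtype.val h) (rowS S)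
  change Strip.poly S (rowS S) = 0 at this
  rw [poly_row hS] at this
  exact one_ne_zero this

/-- Dominance: a nonzero homomorphism between Specht modules bounds the partial row sums. -/
theorem card_lt_le (hS : Strip.IsLabelling S nu)
    (T : Strip.specht S →ₗ[ℂ] Strip.specht S') (hT : T ≠ 0)
    (hTg : ∀ g x, T (spRep S g x) = spRep S' g (T x)) (k : ℕ) :
    (Finset.univ.filter fun x => rowS S' x < k).card ≤
      (Finset.univ.filter fun x => rowS S x < k).card := by
  set p : Strip.specht S := ⟨Strip.poly S, poly_mem S⟩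
  have hp : T p ≠ 0 := by
    refine fun h => hT (LinearMap.ext fun ⟨z, hz⟩ => ?_)
    induction hz using Submodule.span_induction with
    | mem z hz =>
      obtain ⟨g, rfl⟩ := hz
      show T (spRep S g p) = 0
      rw [hTg, h, map_zero]
    | zero => exact map_zero T
    | add a b ha' hb' ha hb =>
      show T (⟨a, ha'⟩ + ⟨b, hb'⟩) = 0
      rw [map_add, ha, hb]
      simp
    | smul r a ha' ha =>
      show T (r • ⟨a, ha'⟩) = 0
      rw [map_smul, ha]
      simp
  have hsym : ∀ t, ((Strip.colPerms S).card : ℂ) * (T p : (α → ℕ) → ℂ) t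
      = anti S (T p) t := by
    intro t
    rw [anti]
    have : ∀ c ∈ Strip.colPerms S, Strip.sgn c * (T p : (α → ℕ) → ℂ) (t ∘ c)
        = (T p : (α → ℕ) → ℂ) t := by
      intro c hc
      have e : spRep S c p = Strip.sgn c • p := Subtype.ext (funext fun u => poly_comp c hc u)
      rw [← spRep_coe, ← hTg, e, map_smul, Submodule.coe_smul, Pi.smul_apply, smul_eq_mul,
        ← mul_assoc, sgn_sq, one_mul]
    rw [Finset.sum_congr rfl this, Finset.sum_const, nsmul_eq_mul]
  obtain ⟨t, ht⟩ : ∃ t, (T p : (α → ℕ) → ℂ) t ≠ 0 := by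
    by_contra h
    push Not at h
    exact hp (Subtype.ext (funext h))
  have hcne : ((Strip.colPerms S).card : ℂ) ≠ 0 :=
    Nat.cast_ne_zero.2 (Finset.card_ne_zero.2 ⟨1, Strip.one_mem_colPerms⟩)
  have hinj : ∀ a b, (S a).2 = (S b).2 → t a = t b → a = b := by
    intro a b hab he
    by_contra hne
    refine ht ?_
    have hτ : Equiv.swap a b ∈ Strip.colPerms S := Strip.mem_colPerms.2 fun y => by
      rw [Equiv.swap_apply_def]; split_ifs with h1 h2
      · rw [h1, hab]
      · rw [h2, hab]
      · rfl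
    have e : spRep S (Equiv.swap a b) p = Strip.sgn (Equiv.swap a b) • p :=
      Subtype.ext (funext fun u => poly_comp _ hτ u)
    have h1 : (spRep S' (Equiv.swap a b) (T p) : (α → ℕ) → ℂ) t
        = -(T p : (α → ℕ) → ℂ) t := by
      rw [← hTg, e, map_smul]
      simp [Strip.sgn, hne]
    rw [spRep_coe, show t ∘ Equiv.swap a b = t from funext fun y => by
      simp only [Function.comp_apply]
      rw [Equiv.swap_apply_def]; split_ifs with h1 h2
      · rw [h1, he]
      · rw [h2, he]
      · rfl] at h1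
    linear_combination h1 / 2
  obtain ⟨c, -, hle⟩ := exists_col_le hS t hinj
  obtain ⟨g, -, rfl⟩ := Finset.mem_image.1 (Classical.not_not.1 fun h =>
    ht (specht_support (T p).2 h) : t ∈ orbit S')
  calc (Finset.univ.filter fun x => rowS S' x < k).card
      = (Finset.univ.filter fun x => rowS S' (g x) < k).card :=
        (Finset.card_equiv g fun x => by simp).symm
    _ ≤ (Finset.univ.filter fun x => rowS S (c x) < k).card := by
        refine Finset.card_le_card fun x hx => ?_
        simp only [Finset.mem_filter, Finset.mem_univ, true_and] at hx ⊢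
        exact lt_of_le_of_lt (hle x) hx
    _ = _ := Finset.card_equiv c fun x => by simp

/-- Labellings with the same partial row sums label the same diagram. -/
theorem diagram_eq (hS : Strip.IsLabelling S nu) (hS' : Strip.IsLabelling S' mu)
    (h : ∀ k, (Finset.univ.filter fun x => rowS S x < k).card =
      (Finset.univ.filter fun x => rowS S' x < k).card) : nu = mu := by
  have hrow : ∀ {S₁ : α → ℕ × ℕ} {d : YoungDiagram}, Strip.IsLabelling S₁ d → ∀ i,
      d.rowLen i = (Finset.univ.filter fun x => rowS S₁ x = i).card := by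
    intro S₁ d hd i
    rw [YoungDiagram.rowLen_eq_card]
    refine (Finset.card_nbij S₁ (fun x hx => ?_) hd.1.injOn fun c hc => ?_).symm
    · simp only [Finset.coe_filter, Finset.mem_univ, true_and, Set.mem_ofPred_eq] at hx
      rw [Finset.mem_coe, YoungDiagram.mem_row_iff]
      refine ⟨?_, hx⟩
      rw [← YoungDiagram.mem_cells, ← hd.2]
      exact Finset.mem_image_of_mem _ (Finset.mem_univ x)
    · rw [Finset.mem_coe, YoungDiagram.mem_row_iff, ← YoungDiagram.mem_cells, ← hd.2,
        Finset.mem_image] at hc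
      obtain ⟨⟨x, -, rfl⟩, hx⟩ := hc
      exact ⟨x, Finset.mem_coe.2 (Finset.mem_filter.2 ⟨Finset.mem_univ x, hx⟩), rfl⟩
  have hsplit : ∀ (S₁ : α → ℕ × ℕ) i, (Finset.univ.filter fun x => rowS S₁ x < i + 1).card
      = (Finset.univ.filter fun x => rowS S₁ x < i).card
        + (Finset.univ.filter fun x => rowS S₁ x = i).card := by
    intro S₁ i
    rw [← Finset.card_union_of_disjoint]
    · congr 1
      ext x
      simp only [Finset.mem_filter, Finset.mem_union, Finset.mem_univ, true_and]
      omega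
    · exact Finset.disjoint_filter.2 fun x _ h1 h2 => by omega
  have hlen : ∀ i, nu.rowLen i = mu.rowLen i := by
    intro i
    have h1 := h (i + 1)
    rw [hsplit, hsplit, h i] at h1
    rw [hrow hS, hrow hS']
    omega
  ext ⟨i, j⟩
  simp [YoungDiagram.mem_cells, YoungDiagram.mem_iff_lt_rowLen, hlen]

end Vale.Agent.P197.Spe

end
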