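import Vale.Agent.P197.Strip.Peel

/-!
# P197: Specht modules of arbitrary labellings as representations

`S : α → ℕ × ℕ` labels the cells of a diagram by the finite type `α`; `Strip.poly S` is its
polytabloid, a function on row assignments `α → ℕ`, and `Strip.specht S` the span of its
translates.
-/

noncomputable section

namespace Vale.Agent.P197.Spe

variable {α : Type*} [Fintype α]

/-- The permutations of the letters acting on functions on row assignments. -/
def assignRep (α : Type*) : Representation ℂ (Equiv.Perm α) ((α → ℕ) → ℂ) where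
  toFun g := LinearMap.funLeft ℂ ℂ fun (t : α → ℕ) => t ∘ g
  map_one' := rfl
  map_mul' _ _ := rfl

lemma assignRep_apply (g : Equiv.Perm α) (x : (α → ℕ) → ℂ) (t : α → ℕ) :
    assignRep α g x t = x (t ∘ g) := rfl

lemma specht_le_comap (S : α → ℕ × ℕ) (g : Equiv.Perm α) :
    Strip.specht S ≤ (Strip.specht S).comap (assignRep α g) := by
  refine Submodule.span_le.2 ?_
  rintro x ⟨h, rfl⟩
  exact Submodule.subset_span ⟨g * h, rfl⟩

lemma poly_mem (S : α → ℕ × ℕ) : Strip.poly S ∈ Strip.specht S :=
  Submodule.subset_span ⟨1, rfl⟩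

/-- The Specht module of a labelling as a representation. -/
def spRep (S : α → ℕ × ℕ) : Representation ℂ (Equiv.Perm α) (Strip.specht S) :=
  (assignRep α).subrepresentation (Strip.specht S) (specht_le_comap S)

lemma spRep_coe (S : α → ℕ × ℕ) (g : Equiv.Perm α) (x : Strip.specht S) (t : α → ℕ) :
    (spRep S g x : (α → ℕ) → ℂ) t = (x : (α → ℕ) → ℂ) (t ∘ g) := rfl

/-- The transposed labelling. -/
def swapS (S : α → ℕ × ℕ) (x : α) : ℕ × ℕ := ((S x).2, (S x).1)

end Vale.Agent.P197.Spe

end
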